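import Mathlib

/-!
# P284 (helper324), project D, E4: the projective distance on `ℂ^m`, algebra
-/

open Finset

noncomputable section

namespace Vale.Agent.P284.H324.D

/-- `|σ|²` -/
def n2 {m : ℕ} (σ : Fin m → ℂ) : ℝ := ∑ a, ‖σ a‖ ^ 2

/-- `2 |σ ∧ τ|²` -/
def wd {m : ℕ} (σ τ : Fin m → ℂ) : ℝ := ∑ a, ∑ b, ‖σ a * τ b - σ b * τ a‖ ^ 2

variable {m : ℕ}

theorem n2_nonneg (σ : Fin m → ℂ) : 0 ≤ n2 σ := sum_nonneg fun _ _ => sq_nonneg _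

theorem wd_nonneg (σ τ : Fin m → ℂ) : 0 ≤ wd σ τ :=
  sum_nonneg fun _ _ => sum_nonneg fun _ _ => sq_nonneg _

theorem n2_pos {σ : Fin m → ℂ} (h : σ ≠ 0) : 0 < n2 σ := by
  obtain ⟨a, ha⟩ := Function.ne_iff.1 h
  exact sum_pos' (fun _ _ => sq_nonneg _) ⟨a, mem_univ _, by
    have : 0 < ‖σ a‖ := norm_pos_iff.2 ha
    positivity⟩

theorem wd_comm (σ τ : Fin m → ℂ) : wd σ τ = wd τ σ := by
  unfold wd
  rw [sum_comm]
  refine sum_congr rfl fun a _ => sum_congr rfl fun b _ => ?_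
  rw [show σ b * τ a - σ a * τ b = τ a * σ b - τ b * σ a by ring]

theorem wd_smul (c : ℂ) (σ τ : Fin m → ℂ) : wd (c • σ) τ = ‖c‖ ^ 2 * wd σ τ := by
  unfold wd
  rw [mul_sum]
  refine sum_congr rfl fun a _ => ?_
  rw [mul_sum]
  refine sum_congr rfl fun b _ => ?_
  rw [Pi.smul_apply, Pi.smul_apply, smul_eq_mul, smul_eq_mul,
    show c * σ a * τ b - c * σ b * τ a = c * (σ a * τ b - σ b * τ a) by ring, norm_mul, mul_pow]

theorem n2_smul (c : ℂ) (σ : Fin m → ℂ) : n2 (c • σ) = ‖c‖ ^ 2 * n2 σ := by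
  unfold n2
  rw [mul_sum]
  refine sum_congr rfl fun a _ => ?_
  rw [Pi.smul_apply, smul_eq_mul, norm_mul, mul_pow]

/-- Cauchy-Schwarz -/
theorem norm_sum_mul_le (x y : Fin m → ℂ) :
    ‖∑ a, x a * y a‖ ^ 2 ≤ (∑ a, ‖x a‖ ^ 2) * ∑ a, ‖y a‖ ^ 2 := by
  have h1 : ‖∑ a, x a * y a‖ ≤ ∑ a, ‖x a‖ * ‖y a‖ :=
    (norm_sum_le _ _).trans (le_of_eq (sum_congr rfl fun a _ => norm_mul _ _))
  exact (pow_le_pow_left₀ (norm_nonneg _) h1 2).trans (sum_mul_sq_le_sq_mul_sq _ _ _)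

theorem wd_le (σ τ : Fin m → ℂ) : wd σ τ ≤ 4 * (n2 σ * n2 τ) := by
  have h1 : ∀ a b, ‖σ a * τ b - σ b * τ a‖ ^ 2 ≤
      2 * (‖σ a‖ ^ 2 * ‖τ b‖ ^ 2) + 2 * (‖σ b‖ ^ 2 * ‖τ a‖ ^ 2) := by
    intro a b
    have h := norm_sub_le (σ a * τ b) (σ b * τ a)
    rw [norm_mul, norm_mul] at h
    have h0 := norm_nonneg (σ a * τ b - σ b * τ a)
    nlinarith [sq_nonneg (‖σ a‖ * ‖τ b‖ - ‖σ b‖ * ‖τ a‖), mul_nonneg (norm_nonneg (σ a)) (norm_nonneg (τ b)),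
      mul_nonneg (norm_nonneg (σ b)) (norm_nonneg (τ a))]
  calc wd σ τ ≤ ∑ a, ∑ b, (2 * (‖σ a‖ ^ 2 * ‖τ b‖ ^ 2) + 2 * (‖σ b‖ ^ 2 * ‖τ a‖ ^ 2)) :=
        sum_le_sum fun a _ => sum_le_sum fun b _ => h1 a b
    _ = 4 * (n2 σ * n2 τ) := by
        have h2 : ∑ a, ∑ b, (2 * (‖σ a‖ ^ 2 * ‖τ b‖ ^ 2)) = 2 * (n2 σ * n2 τ) := by
          unfold n2
          rw [sum_mul_sum, mul_sum]
          exact sum_congr rfl fun a _ => by rw [mul_sum]
        have h3 : ∑ a, ∑ b, (2 * (‖σ b‖ ^ 2 * ‖τ a‖ ^ 2)) = 2 * (n2 σ * n2 τ) := by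
          rw [sum_comm]
          exact h2
        simp only [sum_add_distrib]
        rw [h2, h3]
        ring

/-- **the triangle inequality** (with constants) -/
theorem tri (σ F G : Fin m → ℂ) :
    n2 σ * wd F G ≤ 3 * (n2 F * wd σ G) + 6 * (n2 G * wd σ F) := by
  rcases eq_or_ne σ 0 with rfl | hσ
  · have h0 : n2 (0 : Fin m → ℂ) = 0 := by simp [n2]
    rw [h0, zero_mul]
    have := mul_nonneg (n2_nonneg F) (wd_nonneg 0 G)
    have := mul_nonneg (n2_nonneg G) (wd_nonneg 0 F)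
    positivity
  have hpos := n2_pos hσ
  set s : ℂ := ∑ a, (starRingEnd ℂ) (σ a) * F a with hs
  set A : Fin m → ℂ := fun b => ∑ a, (starRingEnd ℂ) (σ a) * (F a * σ b - F b * σ a) with hA
  have hn : ∑ a, (starRingEnd ℂ) (σ a) * σ a = ((n2 σ : ℝ) : ℂ) := by
    unfold n2
    push_cast
    refine sum_congr rfl fun a _ => ?_
    rw [← Complex.normSq_eq_conj_mul_self, Complex.normSq_eq_norm_sq]
    push_cast
    rfl
  have hF : ∀ b, ((n2 σ : ℝ) : ℂ) * F b = s * σ b - A b := by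
    intro b
    rw [hs, hA, ← hn, sum_mul, sum_mul, ← sum_sub_distrib]
    exact sum_congr rfl fun a _ => by ring
  have hAle : ∑ b, ‖A b‖ ^ 2 ≤ n2 σ * wd σ F := by
    calc ∑ b, ‖A b‖ ^ 2 ≤ ∑ b, (n2 σ * ∑ a, ‖σ a * F b - σ b * F a‖ ^ 2) := by
          refine sum_le_sum fun b _ => ?_
          refine (norm_sum_mul_le _ _).trans (le_of_eq ?_)
          unfold n2
          congr 1
          · exact sum_congr rfl fun a _ => by rw [RCLike.norm_conj]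
          · refine sum_congr rfl fun a _ => ?_
            rw [← norm_neg]
            congr 2
            ring
      _ = n2 σ * wd σ F := by
          rw [← mul_sum]
          unfold wd
          rw [sum_comm]
  have hsle : ‖s‖ ^ 2 ≤ n2 σ * n2 F := by
    refine (norm_sum_mul_le _ _).trans (le_of_eq ?_)
    unfold n2
    congr 1
    exact sum_congr rfl fun a _ => by rw [RCLike.norm_conj]
  have key : ∀ b c, (n2 σ) ^ 2 * ‖F b * G c - F c * G b‖ ^ 2 ≤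
      3 * (‖s‖ ^ 2 * ‖σ b * G c - σ c * G b‖ ^ 2) + 3 * (‖A b‖ ^ 2 * ‖G c‖ ^ 2) +
        3 * (‖A c‖ ^ 2 * ‖G b‖ ^ 2) := by
    intro b c
    have e1 : ((n2 σ : ℝ) : ℂ) * (F b * G c - F c * G b) =
        s * (σ b * G c - σ c * G b) - A b * G c + A c * G b := by
      linear_combination G c * hF b - G b * hF c
    have e2 : n2 σ * ‖F b * G c - F c * G b‖ ≤
        ‖s‖ * ‖σ b * G c - σ c * G b‖ + ‖A b‖ * ‖G c‖ + ‖A c‖ * ‖G b‖ := by
      have e3 : n2 σ * ‖F b * G c - F c * G b‖ = ‖((n2 σ : ℝ) : ℂ) * (F b * G c - F c * G b)‖ := by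
        rw [norm_mul, Complex.norm_real, Real.norm_of_nonneg (n2_nonneg σ)]
      rw [e3, e1]
      refine (norm_add_le _ _).trans (add_le_add ((norm_sub_le _ _).trans ?_) ?_)
      · rw [norm_mul, norm_mul]
      · rw [norm_mul]
    have e4 : (n2 σ * ‖F b * G c - F c * G b‖) ^ 2 ≤
        (‖s‖ * ‖σ b * G c - σ c * G b‖ + ‖A b‖ * ‖G c‖ + ‖A c‖ * ‖G b‖) ^ 2 :=
      pow_le_pow_left₀ (mul_nonneg (n2_nonneg _) (norm_nonneg _)) e2 2
    have e5 : ∀ x y z : ℝ, (x + y + z) ^ 2 ≤ 3 * x ^ 2 + 3 * y ^ 2 + 3 * z ^ 2 := by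
      intro x y z
      nlinarith [sq_nonneg (x - y), sq_nonneg (y - z), sq_nonneg (x - z)]
    have e6 := e4.trans (e5 _ _ _)
    simp only [mul_pow] at e6
    exact e6
  have hsum : (n2 σ) ^ 2 * wd F G ≤ 3 * (‖s‖ ^ 2 * wd σ G) + 6 * ((∑ b, ‖A b‖ ^ 2) * n2 G) := by
    have g1 : (n2 σ) ^ 2 * wd F G = ∑ b, ∑ c, (n2 σ) ^ 2 * ‖F b * G c - F c * G b‖ ^ 2 := by
      unfold wd
      rw [mul_sum]
      exact sum_congr rfl fun b _ => by rw [mul_sum]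
    rw [g1]
    refine (sum_le_sum fun b _ => sum_le_sum fun c _ => key b c).trans (le_of_eq ?_)
    simp only [sum_add_distrib]
    have g2 : ∑ b, ∑ c, 3 * (‖s‖ ^ 2 * ‖σ b * G c - σ c * G b‖ ^ 2) = 3 * (‖s‖ ^ 2 * wd σ G) := by
      unfold wd
      simp only [mul_sum]
    have g3 : ∑ b, ∑ c, 3 * (‖A b‖ ^ 2 * ‖G c‖ ^ 2) = 3 * ((∑ b, ‖A b‖ ^ 2) * n2 G) := by
      unfold n2
      rw [sum_mul_sum, mul_sum]
      exact sum_congr rfl fun a _ => by rw [mul_sum]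
    have g4 : ∑ b, ∑ c, 3 * (‖A c‖ ^ 2 * ‖G b‖ ^ 2) = 3 * ((∑ b, ‖A b‖ ^ 2) * n2 G) := by
      rw [sum_comm]
      exact g3
    rw [g2, g3, g4]
    ring
  have h1 : (n2 σ) ^ 2 * wd F G ≤ n2 σ * (3 * (n2 F * wd σ G) + 6 * (n2 G * wd σ F)) := by
    refine hsum.trans ?_
    have k1 := mul_le_mul_of_nonneg_right hsle (wd_nonneg σ G)
    have k2 := mul_le_mul_of_nonneg_right hAle (n2_nonneg G)
    nlinarith
  have h2 : n2 σ * (n2 σ * wd F G) ≤ n2 σ * (3 * (n2 F * wd σ G) + 6 * (n2 G * wd σ F)) := by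
    refine le_trans (le_of_eq ?_) h1
    ring
  exact le_of_mul_le_mul_left h2 hpos

end Vale.Agent.P284.H324.D
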