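import Vale.Agent.P284.H324.D.Lower
import Mathlib.Analysis.SpecialFunctions.Pow.Integral

/-!
# P284 (helper324), project D, E4: the integral of `|log t| t^(-k)` over a small ball, `k < R`
-/

open Finset Set Filter Metric MeasureTheory
open scoped Topology ENNReal

noncomputable section

namespace Vale.Agent.P284.H324.D

open Vale.Agent.P281.H64 (Cm)
open Vale.Agent.P284.H451.D (LF LF_apply)

variable {m R : ℕ}

/-- `2 |σ ∧ τ|² / (|σ|² (1 + |τ|²))` -/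
def tt (σ τ : Fin m → ℂ) : ℝ := wd σ τ / (n2 σ * (1 + n2 τ))

theorem tt_nonneg (σ τ : Fin m → ℂ) : 0 ≤ tt σ τ :=
  div_nonneg (wd_nonneg _ _) (mul_nonneg (n2_nonneg _) (by have := n2_nonneg τ; linarith))

theorem tt_le (σ τ : Fin m → ℂ) : tt σ τ ≤ 4 := by
  unfold tt
  have h1 := wd_le σ τ
  have h2 := n2_nonneg τ
  have h3 := n2_nonneg σ
  refine div_le_of_le_mul₀ (mul_nonneg h3 (by linarith)) (by norm_num) ?_
  nlinarith [mul_nonneg h3 h2]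

/-- **nearest point** -/
theorem exists_near {F : Cm R → Cm (R + 1)} {z₀ : Cm R} (hF : ∀ z, AnalyticAt ℂ F z)
    (h : Function.Surjective (LF F z₀)) :
    ∃ r : ℝ, 0 < r ∧ ∃ c : ℝ, 0 < c ∧ ∀ σ : Cm (R + 1), σ ≠ 0 → ∃ z₁ ∈ closedBall z₀ r,
      ∀ z ∈ closedBall z₀ r, c * ‖z - z₁‖ ^ 2 ≤ tt σ (F z) := by
  obtain ⟨h0, -⟩ := exists_low h
  obtain ⟨c, hc, hev⟩ := exists_sep (hF z₀) h
  have hFc : Continuous F := continuous_iff_continuousAt.2 fun z => (hF z).continuousAt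
  have hn : Continuous fun z => n2 (F z) := continuous_n2.comp hFc
  have hnz : ∀ᶠ z in 𝓝 z₀, 0 < n2 (F z) := hn.continuousAt.eventually (lt_mem_nhds (n2_pos h0))
  obtain ⟨ε₁, hε₁, hB₁⟩ := Metric.eventually_nhds_iff_ball.1 hev
  obtain ⟨ε₂, hε₂, hB₂⟩ := Metric.eventually_nhds_iff_ball.1 hnz
  set r := min (ε₁ / 2) (ε₂ / 2) with hr
  have hr0 : 0 < r := by positivity
  have hr1 : r < ε₁ := lt_of_le_of_lt (min_le_left _ _) (by linarith)
  have hr2 : r < ε₂ := lt_of_le_of_lt (min_le_right _ _) (by linarith)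
  have hcomp : IsCompact (closedBall z₀ r) := isCompact_closedBall z₀ r
  have hne : (closedBall z₀ r).Nonempty := ⟨z₀, mem_closedBall_self hr0.le⟩
  obtain ⟨zb, -, hzb⟩ := hcomp.exists_isMaxOn hne hn.continuousOn
  set b := n2 (F zb) with hb
  have hb0 : 0 ≤ b := n2_nonneg _
  have hle : ∀ z ∈ closedBall z₀ r, n2 (F z) ≤ b := fun z hz => hzb hz
  have hpos : ∀ z ∈ closedBall z₀ r, 0 < n2 (F z) := fun z hz =>
    hB₂ z (closedBall_subset_ball hr2 hz)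
  have hsep : ∀ z ∈ closedBall z₀ r, ∀ z' ∈ closedBall z₀ r,
      c * ‖z - z'‖ ^ 2 ≤ wd (F z) (F z') := by
    intro z hz z' hz'
    refine hB₁ (z, z') ?_
    rw [mem_ball, Prod.dist_eq]
    exact max_lt (lt_of_le_of_lt hz hr1) (lt_of_le_of_lt hz' hr1)
  refine ⟨r, hr0, c / (9 * (1 + b) * (1 + b)), by positivity, fun σ hσ => ?_⟩
  have hσ0 := n2_pos hσ
  have hcg : ContinuousOn (fun z => wd σ (F z) / n2 (F z)) (closedBall z₀ r) :=
    ((continuous_wd.comp (continuous_const.prodMk hFc)).continuousOn).div hn.continuousOn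
      fun z hz => (hpos z hz).ne'
  obtain ⟨z₁, hz₁, hmin⟩ := hcomp.exists_isMinOn hne hcg
  refine ⟨z₁, hz₁, fun z hz => ?_⟩
  have g1 : wd σ (F z₁) / n2 (F z₁) ≤ wd σ (F z) / n2 (F z) := hmin hz
  have p1 := hpos z₁ hz₁
  have p2 := hpos z hz
  rw [div_le_div_iff₀ p1 p2] at g1
  have g2 := tri σ (F z) (F z₁)
  have g3 : n2 σ * wd (F z) (F z₁) ≤ 9 * (b * wd σ (F z)) := by
    have k1 : n2 (F z₁) * wd σ (F z) ≤ b * wd σ (F z) :=
      mul_le_mul_of_nonneg_right (hle z₁ hz₁) (wd_nonneg _ _)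
    nlinarith
  have g4 := mul_le_mul_of_nonneg_left (hsep z hz z₁ hz₁) hσ0.le
  unfold tt
  rw [le_div_iff₀ (mul_pos hσ0 (by linarith))]
  have g5 : n2 σ * (c * ‖z - z₁‖ ^ 2) ≤ 9 * (1 + b) * wd σ (F z) := by
    have := wd_nonneg σ (F z)
    nlinarith
  have g6 : 1 + n2 (F z) ≤ 1 + b := by linarith [hle z hz]
  have h9 : (0 : ℝ) < 9 * (1 + b) := by positivity
  calc c / (9 * (1 + b) * (1 + b)) * ‖z - z₁‖ ^ 2 * (n2 σ * (1 + n2 (F z)))
      ≤ c / (9 * (1 + b) * (1 + b)) * ‖z - z₁‖ ^ 2 * (n2 σ * (1 + b)) := by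
        refine mul_le_mul_of_nonneg_left (mul_le_mul_of_nonneg_left g6 hσ0.le) (by positivity)
    _ = (n2 σ * (c * ‖z - z₁‖ ^ 2)) / (9 * (1 + b)) := by field_simp
    _ ≤ (9 * (1 + b) * wd σ (F z)) / (9 * (1 + b)) := by
        exact div_le_div_of_nonneg_right g5 h9.le
    _ = wd σ (F z) := by field_simp

/-- `|log (κ x)| x⁻ᵏ ≤ A x^(-(k + 1/4))` for `0 < x ≤ 4` -/
theorem log_bound {κ x : ℝ} (hκ : 0 < κ) (hx : 0 < x) (hx4 : x ≤ 4) (k : ℕ) :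
    |Real.log (κ * x)| * (x⁻¹) ^ k ≤
      (8 * κ + 4 * κ ^ (-(1 / 4 : ℝ))) * x ^ (-((k : ℝ) + 1 / 4)) := by
  have hκx : 0 < κ * x := mul_pos hκ hx
  have h1 : |Real.log (κ * x)| ≤ κ * x + 4 * (κ * x) ^ (-(1 / 4 : ℝ)) := by
    have g0 : 0 ≤ 4 * (κ * x) ^ (-(1 / 4 : ℝ)) := by positivity
    rw [abs_le]
    constructor
    · have g1 := Real.log_le_rpow_div (x := (κ * x)⁻¹) (ε := 1 / 4) (by positivity) (by norm_num)
      rw [Real.log_inv] at g1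
      have g2 : ((κ * x)⁻¹) ^ (1 / 4 : ℝ) / (1 / 4) = 4 * (κ * x) ^ (-(1 / 4 : ℝ)) := by
        rw [Real.inv_rpow hκx.le, ← Real.rpow_neg hκx.le]
        ring
      rw [g2] at g1
      linarith
    · have g1 := Real.log_le_sub_one_of_pos hκx
      linarith
  have h2 : κ * x ≤ 8 * κ * x ^ (-(1 / 4 : ℝ)) := by
    have g1 : x = x ^ (5 / 4 : ℝ) * x ^ (-(1 / 4 : ℝ)) := by
      rw [← Real.rpow_add hx]
      norm_num
    have g2 : x ^ (5 / 4 : ℝ) ≤ 8 := by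
      calc x ^ (5 / 4 : ℝ) ≤ (4 : ℝ) ^ (5 / 4 : ℝ) := Real.rpow_le_rpow hx.le hx4 (by norm_num)
        _ ≤ (4 : ℝ) ^ (3 / 2 : ℝ) := Real.rpow_le_rpow_of_exponent_le (by norm_num) (by norm_num)
        _ = 8 := by
          rw [show (4 : ℝ) = 2 ^ (2 : ℝ) by norm_num, ← Real.rpow_mul (by norm_num)]
          norm_num
    have g3 : 0 ≤ x ^ (-(1 / 4 : ℝ)) := by positivity
    calc κ * x = κ * (x ^ (5 / 4 : ℝ) * x ^ (-(1 / 4 : ℝ))) := by rw [← g1]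
      _ ≤ κ * (8 * x ^ (-(1 / 4 : ℝ))) :=
        mul_le_mul_of_nonneg_left (mul_le_mul_of_nonneg_right g2 g3) hκ.le
      _ = 8 * κ * x ^ (-(1 / 4 : ℝ)) := by ring
  have h3 : (κ * x) ^ (-(1 / 4 : ℝ)) = κ ^ (-(1 / 4 : ℝ)) * x ^ (-(1 / 4 : ℝ)) :=
    Real.mul_rpow hκ.le hx.le
  have h4 : x ^ (-((k : ℝ) + 1 / 4)) = x ^ (-(1 / 4 : ℝ)) * (x⁻¹) ^ k := by
    have g1 : x ^ (-((k : ℝ) + 1 / 4)) = x ^ (-(1 / 4 : ℝ)) * x ^ (-(k : ℝ)) := by
      rw [← Real.rpow_add hx]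
      congr 1
      ring
    rw [g1, Real.rpow_neg hx.le (k : ℝ), Real.rpow_natCast, inv_pow]
  rw [h4]
  have h5 : |Real.log (κ * x)| ≤ (8 * κ + 4 * κ ^ (-(1 / 4 : ℝ))) * x ^ (-(1 / 4 : ℝ)) := by
    refine h1.trans ?_
    rw [h3]
    linarith
  calc |Real.log (κ * x)| * (x⁻¹) ^ k
      ≤ ((8 * κ + 4 * κ ^ (-(1 / 4 : ℝ))) * x ^ (-(1 / 4 : ℝ))) * (x⁻¹) ^ k :=
        mul_le_mul_of_nonneg_right h5 (by positivity)
    _ = _ := by ring

/-- `∫ ‖z - a‖^(-α)` over a ball is bounded uniformly in `a` -/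
theorem exists_unif (hR : 1 ≤ R) {α : ℝ} (hα : α < 2 * R) (z₀ : Cm R) (r : ℝ) :
    ∃ C : ℝ, 0 ≤ C ∧ ∀ a ∈ closedBall z₀ r,
      IntegrableOn (fun z : Cm R => ‖z - a‖ ^ (-α)) (closedBall z₀ r) ∧
        ∫ z in closedBall z₀ r, ‖z - a‖ ^ (-α) ≤ C := by
  have hfr : Module.finrank ℝ (Cm R) = 2 * R := by
    have : Module.finrank ℝ (Fin R → ℂ) = Module.finrank ℝ ℂ * R := by
      rw [Module.finrank_pi_fintype]
      simp [mul_comm]
    rw [this, Complex.finrank_real_complex]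
  have hint : IntegrableOn (fun z : Cm R => ‖z‖ ^ (-α)) (ball (0 : Cm R) (2 * r + 1)) volume := by
    refine integrableOn_ball_of_norm_le_rpow (C := 1) (α := α) ?_ ?_ ?_ ?_
    · rw [hfr]; omega
    · rw [hfr]; push_cast; exact hα
    · refine Eventually.of_forall fun z => ?_
      rw [one_mul, Real.norm_of_nonneg (Real.rpow_nonneg (norm_nonneg _) _)]
    · exact (measurable_norm.pow_const (-α)).aestronglyMeasurable
  refine ⟨∫ z in ball (0 : Cm R) (2 * r + 1), ‖z‖ ^ (-α), ?_, fun a ha => ?_⟩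
  · exact setIntegral_nonneg measurableSet_ball fun z _ => Real.rpow_nonneg (norm_nonneg _) _
  have hmp : MeasurePreserving (fun z : Cm R => z - a) volume volume :=
    measurePreserving_sub_right volume a
  have hemb : MeasurableEmbedding (fun z : Cm R => z - a) :=
    (MeasurableEquiv.subRight a).measurableEmbedding
  have hpre : (fun z : Cm R => z - a) ⁻¹' ball 0 (2 * r + 1) = ball a (2 * r + 1) := by
    ext z
    simp [dist_eq_norm]
  have hint' : IntegrableOn (fun z : Cm R => ‖z - a‖ ^ (-α)) (ball a (2 * r + 1)) volume := by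
    have := (hmp.integrableOn_comp_preimage hemb (f := fun z : Cm R => ‖z‖ ^ (-α))
      (s := ball 0 (2 * r + 1))).2 hint
    rw [hpre] at this
    exact this
  have hsub : closedBall z₀ r ⊆ ball a (2 * r + 1) := by
    intro z hz
    have h1 : dist z z₀ ≤ r := hz
    have h2 : dist a z₀ ≤ r := ha
    have h3 := dist_triangle_right z a z₀
    rw [mem_ball]
    linarith
  refine ⟨hint'.mono_set hsub, ?_⟩
  have h1 : ∫ z in closedBall z₀ r, ‖z - a‖ ^ (-α) ≤ ∫ z in ball a (2 * r + 1), ‖z - a‖ ^ (-α) :=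
    setIntegral_mono_set hint' (Eventually.of_forall fun z => Real.rpow_nonneg (norm_nonneg _) _)
      hsub.eventuallyLE
  refine h1.trans (le_of_eq ?_)
  have h2 := hmp.setIntegral_preimage_emb hemb (fun z : Cm R => ‖z‖ ^ (-α)) (ball 0 (2 * r + 1))
  rw [hpre] at h2
  exact h2

theorem meas_aux {T : Cm R → ℝ} (hT : Measurable T) (κ : ℝ) (k : ℕ) :
    Measurable fun z => |Real.log (κ * T z)| * ((T z)⁻¹) ^ k := by
  have h1 : Measurable fun z => |Real.log (κ * T z)| :=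
    (Real.measurable_log.comp (measurable_const.mul hT)).abs
  have h2 : Measurable fun z => ((T z)⁻¹) ^ k := (hT.inv).pow_const k
  exact h1.mul h2

theorem continuous_wd_right (σ : Fin m → ℂ) : Continuous fun τ : Fin m → ℂ => wd σ τ := by
  unfold wd
  fun_prop

theorem meas_tt_right (σ : Fin m → ℂ) : Measurable fun τ : Fin m → ℂ => tt σ τ := by
  have a3 : Measurable fun τ : Fin m → ℂ => wd σ τ := (continuous_wd_right σ).measurable
  have a5 : Measurable fun τ : Fin m → ℂ => n2 τ := continuous_n2.measurable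
  have a4 : Measurable fun τ : Fin m → ℂ => n2 σ * (1 + n2 τ) :=
    measurable_const.mul (measurable_const.add a5)
  exact a3.div a4

theorem meas_tt {F : Cm R → Cm (R + 1)} (hF : Continuous F) (σ : Cm (R + 1)) :
    Measurable fun z => tt σ (F z) :=
  (meas_tt_right σ).comp hF.measurable

theorem int_aux (hR : 1 ≤ R) {g : Cm R → ℝ} (hg : Measurable g) (h0 : ∀ z, 0 ≤ g z)
    {A α C r : ℝ} (hA0 : 0 ≤ A) {z₀ z₁ : Cm R}
    (hi : IntegrableOn (fun z : Cm R => ‖z - z₁‖ ^ (-α)) (closedBall z₀ r))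
    (hi2 : ∫ z in closedBall z₀ r, ‖z - z₁‖ ^ (-α) ≤ C)
    (hpt : ∀ z ∈ closedBall z₀ r, z ≠ z₁ → g z ≤ A * ‖z - z₁‖ ^ (-α)) :
    IntegrableOn g (closedBall z₀ r) ∧ ∫ z in closedBall z₀ r, g z ≤ A * C := by
  have : Nonempty (Fin R) := ⟨⟨0, by omega⟩⟩
  have hns : NullSingletonClass (volume : Measure (Fin R → ℂ)) := by
    rw [volume_pi]
    infer_instance
  have hae : ∀ᵐ z ∂(volume.restrict (closedBall z₀ r)), g z ≤ A * ‖z - z₁‖ ^ (-α) := by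
    have h1 : ∀ᵐ z ∂(volume.restrict (closedBall z₀ r)), z ≠ z₁ :=
      ae_restrict_of_ae (Measure.ae_ne (volume : Measure (Fin R → ℂ)) z₁)
    filter_upwards [h1, ae_restrict_mem measurableSet_closedBall] with z hz1 hz2
    exact hpt z hz2 hz1
  have hint : IntegrableOn g (closedBall z₀ r) := by
    refine Integrable.mono' (hi.const_mul A) hg.aestronglyMeasurable ?_
    filter_upwards [hae] with z hz
    rw [Real.norm_of_nonneg (h0 z)]
    exact hz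
  refine ⟨hint, ?_⟩
  calc ∫ z in closedBall z₀ r, g z
      ≤ ∫ z in closedBall z₀ r, A * ‖z - z₁‖ ^ (-α) := integral_mono_ae hint (hi.const_mul A) hae
    _ = A * ∫ z in closedBall z₀ r, ‖z - z₁‖ ^ (-α) := integral_const_mul _ _
    _ ≤ A * C := mul_le_mul_of_nonneg_left hi2 hA0

theorem pt_aux {κ c x y : ℝ} (hκ : 0 < κ) (hc : 0 < c) (hy : 0 < y) (hx4 : x ≤ 4)
    (hx : c * y ^ 2 ≤ x) (k : ℕ) :
    |Real.log (κ * x)| * (x⁻¹) ^ k ≤
      ((8 * κ + 4 * κ ^ (-(1 / 4 : ℝ))) * c ^ (-((k : ℝ) + 1 / 4))) *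
        y ^ (-(2 * ((k : ℝ) + 1 / 4))) := by
  have g2 : 0 < c * y ^ 2 := by positivity
  have g3 : 0 < x := lt_of_lt_of_le g2 hx
  refine (log_bound hκ g3 hx4 k).trans ?_
  have g4 : x ^ (-((k : ℝ) + 1 / 4)) ≤ (c * y ^ 2) ^ (-((k : ℝ) + 1 / 4)) :=
    Real.rpow_le_rpow_of_nonpos g2 hx (by
      have : (0 : ℝ) ≤ k := Nat.cast_nonneg k
      linarith)
  have g5 : (c * y ^ 2) ^ (-((k : ℝ) + 1 / 4)) =
      c ^ (-((k : ℝ) + 1 / 4)) * y ^ (-(2 * ((k : ℝ) + 1 / 4))) := by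
    rw [Real.mul_rpow hc.le (sq_nonneg _), ← Real.rpow_natCast y 2, ← Real.rpow_mul hy.le]
    congr 2
    push_cast
    ring
  rw [g5] at g4
  calc (8 * κ + 4 * κ ^ (-(1 / 4 : ℝ))) * x ^ (-((k : ℝ) + 1 / 4))
      ≤ (8 * κ + 4 * κ ^ (-(1 / 4 : ℝ))) *
          (c ^ (-((k : ℝ) + 1 / 4)) * y ^ (-(2 * ((k : ℝ) + 1 / 4)))) :=
        mul_le_mul_of_nonneg_left g4 (by positivity)
    _ = _ := by ring

/-- the abstract form of E4 -/
theorem base_aux (hR : 1 ≤ R) {T : Cm R → ℝ} (hT : Measurable T) (h0 : ∀ z, 0 ≤ T z)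
    (h4 : ∀ z, T z ≤ 4) {κ c C r : ℝ} (hκ : 0 < κ) (hc : 0 < c) {z₀ z₁ : Cm R} (k : ℕ)
    (hlow : ∀ z ∈ closedBall z₀ r, c * ‖z - z₁‖ ^ 2 ≤ T z)
    (hi : IntegrableOn (fun z : Cm R => ‖z - z₁‖ ^ (-(2 * ((k : ℝ) + 1 / 4)))) (closedBall z₀ r))
    (hi2 : ∫ z in closedBall z₀ r, ‖z - z₁‖ ^ (-(2 * ((k : ℝ) + 1 / 4))) ≤ C) :
    IntegrableOn (fun z => |Real.log (κ * T z)| * ((T z)⁻¹) ^ k) (closedBall z₀ r) ∧
      ∫ z in closedBall z₀ r, |Real.log (κ * T z)| * ((T z)⁻¹) ^ k ≤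
        ((8 * κ + 4 * κ ^ (-(1 / 4 : ℝ))) * c ^ (-((k : ℝ) + 1 / 4))) * C := by
  refine int_aux hR (meas_aux hT κ k) (fun z => ?_) (by positivity) hi hi2 fun z hz hne => ?_
  · exact mul_nonneg (abs_nonneg _) (pow_nonneg (inv_nonneg.2 (h0 z)) _)
  · exact pt_aux hκ hc (norm_pos_iff.2 (sub_ne_zero.2 hne)) (h4 z) (hlow z hz) k

/-- **E4, the flat part**: `∫_B |log (κ t)| t^(-k) dz ≤ C` uniformly in `σ ≠ 0`, for `k < R` -/
theorem exists_base {F : Cm R → Cm (R + 1)} {z₀ : Cm R} (hF : ∀ z, AnalyticAt ℂ F z)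
    (h : Function.Surjective (LF F z₀)) :
    ∃ r : ℝ, 0 < r ∧ ∀ k : ℕ, k < R → ∀ κ : ℝ, 0 < κ → ∃ C : ℝ, 0 ≤ C ∧
      ∀ σ : Cm (R + 1), σ ≠ 0 →
        IntegrableOn (fun z => |Real.log (κ * tt σ (F z))| * ((tt σ (F z))⁻¹) ^ k)
          (closedBall z₀ r) ∧
        ∫ z in closedBall z₀ r, |Real.log (κ * tt σ (F z))| * ((tt σ (F z))⁻¹) ^ k ≤ C := by
  obtain ⟨r, hr, c, hc, hnear⟩ := exists_near hF h
  have hFc : Continuous F := continuous_iff_continuousAt.2 fun z => (hF z).continuousAt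
  refine ⟨r, hr, fun k hk κ hκ => ?_⟩
  have hR : 1 ≤ R := by omega
  have hαR : 2 * ((k : ℝ) + 1 / 4) < 2 * R := by
    have : ((k : ℝ) + 1) ≤ R := by exact_mod_cast hk
    linarith
  obtain ⟨C, hC, hun⟩ := exists_unif hR hαR z₀ r
  refine ⟨((8 * κ + 4 * κ ^ (-(1 / 4 : ℝ))) * c ^ (-((k : ℝ) + 1 / 4))) * C, by positivity,
    fun σ hσ => ?_⟩
  obtain ⟨z₁, hz₁, hlow⟩ := hnear σ hσ
  obtain ⟨hi, hi2⟩ := hun z₁ hz₁
  exact base_aux (T := fun z => tt σ (F z)) hR (meas_tt hFc σ) (fun z => tt_nonneg σ (F z))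
    (fun z => tt_le σ (F z)) hκ hc k hlow hi hi2

end Vale.Agent.P284.H324.D
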