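import Vale.Agent.P284.H661.D.Defs
import Vale.Agent.P284.H988.D.E5
import Vale.Agent.P284.H324.D.Base

/-!
# P284 (helper324), project D, E4: pointwise estimates
-/

open scoped Manifold ContDiff Topology ComplexOrder ComplexConjugate Matrix
open Filter Set MeasureTheory Metric

noncomputable section

namespace Vale.Agent.P284.H324.D

open Vale.Agent.P272.K Vale.Agent.P284.H248 Vale.Agent.P284.H206.K Vale.Agent.P284.H224.D
open Vale.Agent.P284.H661.D
open Vale.Agent.P284.H451.D (LF LF_apply)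

/-! ### the base estimate with positivity -/

section
variable {m R : ℕ}

theorem ae_ne_ball (hR : 1 ≤ R) (z₁ : Cm R) (s : Set (Cm R)) :
    ∀ᵐ z ∂((volume : Measure (Cm R)).restrict s), z ≠ z₁ := by
  have : Nonempty (Fin R) := ⟨⟨0, by omega⟩⟩
  have hns : NullSingletonClass (volume : Measure (Fin R → ℂ)) := by
    rw [volume_pi]
    infer_instance
  exact ae_restrict_of_ae (Measure.ae_ne (volume : Measure (Fin R → ℂ)) z₁)

/-- `exists_base` and `0 < t` almost everywhere -/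
theorem exists_base2 {F : Cm R → Cm (R + 1)} {z₀ : Cm R} (hF : ∀ z, AnalyticAt ℂ F z)
    (h : Function.Surjective (LF F z₀)) {k : ℕ} (hk : k < R) {κ : ℝ} (hκ : 0 < κ) :
    ∃ r : ℝ, 0 < r ∧ ∃ C : ℝ, 0 ≤ C ∧
      ∀ σ : Cm (R + 1), σ ≠ 0 →
        IntegrableOn (fun z => |Real.log (κ * tt σ (F z))| * ((tt σ (F z))⁻¹) ^ k)
          (closedBall z₀ r) ∧
        ∫ z in closedBall z₀ r, |Real.log (κ * tt σ (F z))| * ((tt σ (F z))⁻¹) ^ k ≤ C ∧
        ∀ᵐ z ∂((volume : Measure (Cm R)).restrict (closedBall z₀ r)), 0 < tt σ (F z) := by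
  obtain ⟨r, hr, c, hc, hnear⟩ := exists_near hF h
  have hFc : Continuous F := continuous_iff_continuousAt.2 fun z => (hF z).continuousAt
  have hR : 1 ≤ R := by omega
  have hαR : 2 * ((k : ℝ) + 1 / 4) < 2 * R := by
    have : ((k : ℝ) + 1) ≤ R := by exact_mod_cast hk
    linarith
  obtain ⟨C, hC, hun⟩ := exists_unif hR hαR z₀ r
  refine ⟨r, hr, ((8 * κ + 4 * κ ^ (-(1 / 4 : ℝ))) * c ^ (-((k : ℝ) + 1 / 4))) * C, by positivity,
    fun σ hσ => ?_⟩
  obtain ⟨z₁, hz₁, hlow⟩ := hnear σ hσ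
  obtain ⟨hi, hi2⟩ := hun z₁ hz₁
  have h1 := base_aux (T := fun z => tt σ (F z)) hR (meas_tt hFc σ) (fun z => tt_nonneg σ (F z))
    (fun z => tt_le σ (F z)) hκ hc k hlow hi hi2
  refine ⟨h1.1, h1.2, ?_⟩
  filter_upwards [ae_ne_ball hR z₁ (closedBall z₀ r), ae_restrict_mem measurableSet_closedBall]
    with z hz1 hz2
  have h2 := hlow z hz2
  have h3 : 0 < ‖z - z₁‖ := norm_pos_iff.2 (sub_ne_zero.2 hz1)
  exact lt_of_lt_of_le (by positivity) h2

end

/-! ### linear algebra -/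

theorem cfd_nonneg {N s : ℕ} {A W : Matrix (Fin N) (Fin N) ℂ} (hA : A.PosSemidef)
    (hW : W.PosSemidef) : 0 ≤ cfd s A W := by
  rw [H988.D.cfd_eq]
  exact H988.D.coD_nonneg_re s hA hW

theorem cfd_le {N s : ℕ} {A B W : Matrix (Fin N) (Fin N) ℂ} {c : ℝ}
    (hA : A.PosSemidef) (hW : W.PosSemidef) (h : ((c : ℂ) • B - A).PosSemidef) :
    cfd s A W ≤ c ^ (N - s) * cfd s B W := by
  rw [H988.D.cfd_eq, H988.D.cfd_eq]
  refine (H988.D.coD_mono_re s hA h hW).trans (le_of_eq ?_)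
  rw [H988.D.coD_smul, ← Complex.ofReal_pow, Complex.re_ofReal_mul]

/-! ### the functions -/

section
variable {n R k : ℕ} {X : Type} [TopologicalSpace X] [ChartedSpace (Cm n) X]
  {L : LineBundle n X}

/-- the vector of the sections at a point -/
def sv (s : Fin (R + 1) → Sec L k) (x : X) : Cm (R + 1) := fun a => (s a).f (ixn L x) x

theorem nS_eq (P : LPart L) (s : Fin (R + 1) → Sec L k) (x : X) :
    nS P s x = n2 (sv s x) / HH P (ixn L x) x ^ k := by
  unfold nS n2 GG sv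
  rw [Finset.sum_div]

theorem nW_eq (P : LPart L) (s : Fin (R + 1) → Sec L k) (v : Cm (R + 1)) (x : X) :
    nW P s v x = wd (sv s x) v / 2 / HH P (ixn L x) x ^ k := by
  unfold nW wd sv
  simp only [← Finset.sum_div]
  ring

theorem nF_eq (v : Cm R) : nF v = n2 v := rfl

/-- the lower bound of `lam - psi` -/
theorem v_low (P : LPart L) (s : Fin (R + 1) → Sec L k) (F : Cm R → Cm (R + 1)) {ε : ℝ}
    (hε : 0 < ε) (x : X) (z : Cm R) (h0 : sv s x ≠ 0) (ht : 0 < tt (sv s x) (F z)) :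
    Real.log (1 / 4 * tt (sv s x) (F z)) + Real.log (1 + nF (F z)) ≤
      lamE ε P s F x z - psiE ε P s x := by
  set σ := sv s x with hσ
  set H := HH P (ixn L x) x ^ k with hH
  have hH0 : 0 < H := pow_pos (HH_pos P (ixn_mem L x)) k
  have hn : 0 < n2 σ := n2_pos h0
  have hF0 : 0 ≤ nF (F z) := n2_nonneg _
  have h4 := tt_le σ (F z)
  unfold lamE psiE
  rw [nW_eq, nS_eq, ← hσ, ← hH]
  set t := tt σ (F z) with hts
  have hwd : wd σ (F z) = t * (n2 σ * (1 + nF (F z))) := by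
    rw [hts]
    unfold tt
    rw [nF_eq]
    have : (0 : ℝ) < 1 + n2 (F z) := by
      have := n2_nonneg (F z)
      linarith
    field_simp
  rw [← Real.log_mul (by positivity) (by positivity), le_sub_iff_add_le,
    ← Real.log_mul (by positivity) (by positivity)]
  refine Real.log_le_log (by positivity) ?_
  rw [hwd]
  have hS : 0 < n2 σ / H := by positivity
  have e1 : t * (n2 σ * (1 + nF (F z))) / 2 / H = t / 2 * (n2 σ / H) * (1 + nF (F z)) := by
    field_simp
  rw [e1]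
  set S := n2 σ / H with hSd
  have h5 : 0 ≤ ε * S * nF (F z) := by positivity
  have h6 : 1 / 4 * t ≤ 1 := by linarith
  have h7 : 1 / 4 * t * (1 + nF (F z)) * ε ^ 2 ≤ ε ^ 2 * (1 + nF (F z)) := by
    have : 0 ≤ ε ^ 2 * (1 + nF (F z)) := by positivity
    nlinarith
  have h8 : 1 / 4 * t * (1 + nF (F z)) * S ≤ t / 2 * S * (1 + nF (F z)) := by
    have : 0 ≤ t * S * (1 + nF (F z)) := by positivity
    nlinarith
  nlinarith

theorem v_zero (P : LPart L) (s : Fin (R + 1) → Sec L k) (F : Cm R → Cm (R + 1)) {ε : ℝ}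
    (hε : 0 < ε) (x : X) (z : Cm R) (h0 : sv s x = 0) :
    0 ≤ lamE ε P s F x z - psiE ε P s x := by
  have hF0 : 0 ≤ nF (F z) := n2_nonneg _
  have e1 : n2 (0 : Cm (R + 1)) = 0 := by simp [n2]
  have e2 : wd (0 : Cm (R + 1)) (F z) = 0 := by simp [wd]
  unfold lamE psiE
  rw [nW_eq, nS_eq, h0, e1, e2]
  simp only [zero_div, mul_zero, zero_mul, zero_add]
  rw [sub_nonneg]
  refine Real.log_le_log (by positivity) ?_
  have : 0 < ε ^ 2 := by positivity
  nlinarith

/-- the negative part times the power of the comparison factor -/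
def mfn (ε : ℝ) (P : LPart L) (s : Fin (R + 1) → Sec L k) (F : Cm R → Cm (R + 1)) (x : X)
    (z : Cm R) : ℝ :=
  max (-(lamE ε P s F x z - psiE ε P s x)) 0 *
    (4 * (2 * (1 + nF (F z)) * Real.exp (-(lamE ε P s F x z - psiE ε P s x)))) ^ (R - 1)

theorem mfn_nonneg (ε : ℝ) (P : LPart L) (s : Fin (R + 1) → Sec L k) (F : Cm R → Cm (R + 1))
    (x : X) (z : Cm R) : 0 ≤ mfn ε P s F x z := by
  have hF0 : 0 ≤ nF (F z) := n2_nonneg _
  unfold mfn
  exact mul_nonneg (le_max_right _ _) (by positivity)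

/-- the pointwise bound -/
theorem mfn_le (P : LPart L) (s : Fin (R + 1) → Sec L k) (F : Cm R → Cm (R + 1)) {ε : ℝ}
    (hε : 0 < ε) (x : X) (z : Cm R) (h0 : sv s x ≠ 0) (ht : 0 < tt (sv s x) (F z)) :
    mfn ε P s F x z ≤ 32 ^ (R - 1) *
      (|Real.log (1 / 4 * tt (sv s x) (F z))| * ((tt (sv s x) (F z))⁻¹) ^ (R - 1)) := by
  have h1 := v_low P s F hε x z h0 ht
  have h4 := tt_le (sv s x) (F z)
  have hF0 : 0 ≤ nF (F z) := n2_nonneg _
  unfold mfn
  set v := lamE ε P s F x z - psiE ε P s x with hv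
  set t := tt (sv s x) (F z) with htd
  have hl1 : Real.log (1 / 4 * t) ≤ 0 := Real.log_nonpos (by positivity) (by linarith)
  have hl2 : 0 ≤ Real.log (1 + nF (F z)) := Real.log_nonneg (by linarith)
  have a1 : max (-v) 0 ≤ |Real.log (1 / 4 * t)| := by
    rw [abs_of_nonpos hl1]
    exact max_le (by linarith) (by linarith)
  have a2 : 4 * (2 * (1 + nF (F z)) * Real.exp (-v)) ≤ 32 * t⁻¹ := by
    have b1 : Real.exp (-v) ≤ Real.exp (-(Real.log (1 / 4 * t) + Real.log (1 + nF (F z)))) :=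
      Real.exp_le_exp.2 (by linarith)
    rw [Real.exp_neg (Real.log _ + _), Real.exp_add, Real.exp_log (by positivity),
      Real.exp_log (by positivity)] at b1
    have b2 : 4 * (2 * (1 + nF (F z)) * Real.exp (-v)) ≤
        4 * (2 * (1 + nF (F z)) * (1 / 4 * t * (1 + nF (F z)))⁻¹) := by
      have : 0 ≤ 4 * (2 * (1 + nF (F z))) := by positivity
      nlinarith
    refine b2.trans (le_of_eq ?_)
    have : (0 : ℝ) < 1 + nF (F z) := by linarith
    field_simp
    norm_num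
  have a3 : (4 * (2 * (1 + nF (F z)) * Real.exp (-v))) ^ (R - 1) ≤ (32 * t⁻¹) ^ (R - 1) :=
    pow_le_pow_left₀ (by positivity) a2 _
  calc max (-v) 0 * (4 * (2 * (1 + nF (F z)) * Real.exp (-v))) ^ (R - 1)
      ≤ |Real.log (1 / 4 * t)| * (32 * t⁻¹) ^ (R - 1) :=
        mul_le_mul a1 a3 (by positivity) (abs_nonneg _)
    _ = _ := by rw [mul_pow]; ring

theorem mfn_zero (P : LPart L) (s : Fin (R + 1) → Sec L k) (F : Cm R → Cm (R + 1)) {ε : ℝ}
    (hε : 0 < ε) (x : X) (z : Cm R) (h0 : sv s x = 0) : mfn ε P s F x z = 0 := by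
  unfold mfn
  have := v_zero P s F hε x z h0
  rw [max_eq_right (by linarith), zero_mul]

end

end Vale.Agent.P284.H324.D
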