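import Vale.Agent.P284.H661.D.Spec
import Vale.Agent.P284.H619.D.Fub
import Vale.Agent.P284.H608.D.Dens
import Vale.Agent.P284.H324.D.Pt

/-!
# P284 (helper324), project D, E4: the base point
-/

open scoped Manifold ContDiff Topology ComplexOrder ComplexConjugate Matrix
open Filter Set MeasureTheory Metric

noncomputable section

namespace Vale.Agent.P284.H324.D

open Vale.Agent.P272.K Vale.Agent.P284.H248 Vale.Agent.P284.H206.K Vale.Agent.P284.H224.D
open Vale.Agent.P284.H661.D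
open Vale.Agent.P284.H451.D (LF LF_apply)

section
variable {n R k : ℕ} {X : Type} [TopologicalSpace X] [ChartedSpace (Cm n) X]
  {L : LineBundle n X}

/-- the mass density of `C W + i∂∂̄ psi` -/
def P0 (d₁ : ℕ) (C : ℝ) (W : Chart n X → Cm n → Matrix (Fin n) (Fin n) ℂ) (psi : X → ℝ)
    (e : Chart n X) (y : Cm n) : ℝ :=
  cfd d₁ ((C : ℂ) • W e y + cHess (fun y => psi (e.symm y)) y) (W e y)

omit [ChartedSpace (Cm n) X] in
theorem MT_zero (C : ℝ) (W : Chart n X → Cm n → Matrix (Fin n) (Fin n) ℂ) (psi : X → ℝ)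
    (lam : X → Cm R → ℝ) (e : Chart n X) (y : Cm n) (z : Cm R) :
    MT C W psi lam 0 e y z = (C : ℂ) • W e y + cHess (fun y => psi (e.symm y)) y := by
  unfold MT
  simp only [zero_mul, add_zero]

theorem P0_dens [IsManifold 𝓘(ℂ, Cm n) ω X] {W : Chart n X → Cm n → Matrix (Fin n) (Fin n) ℂ}
    (hW : IsHermitian W) (C : ℝ) {psi : X → ℝ} (hp : SmoothFn (n := n) psi) (d₁ : ℕ) :
    INT.IsDensity (P0 (X := X) d₁ C W psi) := by
  have hl : JSm (n := n) (R := 0) (fun (x : X) (_ : Cm 0) => psi x) := by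
    intro e x hx z
    exact ContDiffAt.comp (e x, z) (g := fun y => psi (e.symm y))
      (f := fun q : Cm n × Cm 0 => q.1) (hp e x hx) contDiffAt_fst
  have h := H608.D.isDensity_cfdM hW C hp hl d₁ 0 0
  have e1 : (fun (e : Chart n X) y => cfd d₁ (MT C W psi (fun (x : X) (_ : Cm 0) => psi x) 0 e y 0)
      (W e y)) = P0 (X := X) d₁ C W psi := by
    funext e y
    unfold P0
    rw [MT_zero]
  rwa [e1] at h

variable {P : LPart L} {s : Fin (R + 1) → Sec L k} {F : Cm R → Cm (R + 1)} {ε : ℝ}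

theorem v_smooth (hl : JSm (n := n) (lamE ε P s F)) (hp : SmoothFn (n := n) (psiE ε P s))
    (z : Cm R) : SmoothFn (n := n) (fun x => lamE ε P s F x z - psiE ε P s x) :=
  fun e x hx => (hl.left hx z).sub (hp e x hx)

theorem mfn_contX [IsManifold 𝓘(ℂ, Cm n) ω X] (hl : JSm (n := n) (lamE ε P s F)) (hp : SmoothFn (n := n) (psiE ε P s))
    (z : Cm R) : Continuous (fun x => mfn ε P s F x z) := by
  have h := INT.SmoothFn.continuous (v_smooth hl hp z)
  unfold mfn
  exact (h.neg.max continuous_const).mul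
    ((continuous_const.mul (continuous_const.mul (Real.continuous_exp.comp h.neg))).pow _)

theorem mfn_joint (hl : JSm (n := n) (lamE ε P s F)) (hp : SmoothFn (n := n) (psiE ε P s))
    (hF : Continuous F) {e : Chart n X} {x : X} (hx : At e x) (z : Cm R) :
    ContinuousAt (fun q : Cm R × Cm n => mfn ε P s F (e.symm q.2) q.1) (z, e x) := by
  have h1 : ContinuousAt (fun q : Cm R × Cm n => lamE ε P s F (e.symm q.2) q.1) (z, e x) :=
    ContinuousAt.comp (x := (z, e x)) (g := fun q : Cm n × Cm R => lamE ε P s F (e.symm q.1) q.2)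
      (f := fun q : Cm R × Cm n => (q.2, q.1)) (hl e x hx z).continuousAt (by fun_prop)
  have h2 : ContinuousAt (fun q : Cm R × Cm n => psiE ε P s (e.symm q.2)) (z, e x) :=
    ContinuousAt.comp (x := (z, e x)) (g := fun y : Cm n => psiE ε P s (e.symm y))
      (f := fun q : Cm R × Cm n => q.2) (hp e x hx).continuousAt (by fun_prop)
  have h3 := h1.sub h2
  have h4 : ContinuousAt (fun q : Cm R × Cm n => nF (F q.1)) (z, e x) :=
    ((continuous_n2.comp hF).comp continuous_fst).continuousAt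
  have h5 : ContinuousAt (fun q : Cm R × Cm n => Real.exp (-(lamE ε P s F (e.symm q.2) q.1 -
      psiE ε P s (e.symm q.2)))) (z, e x) := Real.continuous_exp.continuousAt.comp h3.neg
  unfold mfn
  exact (h3.neg.max continuousAt_const).mul
    ((continuousAt_const.mul ((continuousAt_const.mul (continuousAt_const.add h4)).mul h5)).pow _)

variable [T2Space X] [CompactSpace X] [IsManifold 𝓘(ℂ, Cm n) ω X]
  {W : Chart n X → Cm n → Matrix (Fin n) (Fin n) ℂ} {C : ℝ} {d₁ : ℕ}

/-- `u ≥ - ∫_X m P₀` -/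
theorem uz_low (hW : IsHermitian W) (hR : 1 ≤ R) (hRn : R ≤ n)
    (hl : JSm (n := n) (lamE ε P s F)) (hp : SmoothFn (n := n) (psiE ε P s))
    (hM : ∀ (e : Chart n X) x, At e x → ∀ z : Cm R, ∀ t ∈ Icc (0 : ℝ) 1,
      (MT C W (psiE ε P s) (lamE ε P s F) t e (e x) z).PosSemidef)
    (hc : ∀ (e : Chart n X) x, At e x → ∀ z : Cm R, ∀ t ∈ Icc (0 : ℝ) 1,
        (((4 * (2 * (1 + nF (F z)) * Real.exp (-(lamE ε P s F x z - psiE ε P s x))) : ℝ) : ℂ) •
            MT C W (psiE ε P s) (lamE ε P s F) 0 e (e x) z -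
          MT C W (psiE ε P s) (lamE ε P s F) t e (e x) z).PosSemidef) (z : Cm R) :
    0 ≤ INT.intX (fun (e : Chart n X) y =>
      mfn ε P s F (e.symm y) z * P0 (n - R + 1) C W (psiE ε P s) e y) ∧
    -INT.intX (fun (e : Chart n X) y =>
      mfn ε P s F (e.symm y) z * P0 (n - R + 1) C W (psiE ε P s) e y) ≤
      uz (n - R + 1) C W (psiE ε P s) (lamE ε P s F) z := by
  set d₁ := n - R + 1 with hd
  have hD := (P0_dens hW C hp d₁).smul (mfn_contX hl hp z)
  have hP0 : ∀ (e : Chart n X) x, At e x → 0 ≤ P0 d₁ C W (psiE ε P s) e (e x) := by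
    intro e x hx
    have h1 := hM e x hx z 0 ⟨le_rfl, zero_le_one⟩
    rw [MT_zero] at h1
    exact cfd_nonneg h1 (hW.posDef e x hx).posSemidef
  have hG : 0 ≤ INT.intX (fun (e : Chart n X) y =>
      mfn ε P s F (e.symm y) z * P0 d₁ C W (psiE ε P s) e y) :=
    INT.intX_nonneg fun e x hx => mul_nonneg (mfn_nonneg _ _ _ _ _ _) (hP0 e x hx)
  refine ⟨hG, ?_⟩
  set G := INT.intX (fun (e : Chart n X) y =>
    mfn ε P s F (e.symm y) z * P0 d₁ C W (psiE ε P s) e y) with hGd
  have hstep : ∀ t ∈ Icc (0 : ℝ) 1, -G ≤ INT.intX (fun (e : Chart n X) y =>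
      (lamE ε P s F (e.symm y) z - psiE ε P s (e.symm y)) *
        cfd d₁ (MT C W (psiE ε P s) (lamE ε P s F) t e y z) (W e y)) := by
    intro t ht
    have h1 : INT.intX (fun (e : Chart n X) y =>
        (-1 : ℝ) * (mfn ε P s F (e.symm y) z * P0 d₁ C W (psiE ε P s) e y)) = -G := by
      rw [INT.intX_const_mul, ← hGd]
      ring
    rw [← h1]
    refine INT.intX_mono (hD.const_mul _) (H608.D.isDensity_u hW C hp hl d₁ t z)
      fun e x hx => ?_
    have hw := (hW.posDef e x hx).posSemidef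
    have b1 := cfd_le (s := d₁) (hM e x hx z t ht) hw (hc e x hx z t ht)
    have b0 := cfd_nonneg (s := d₁) (hM e x hx z t ht) hw
    rw [MT_zero] at b1
    have hnd : n - d₁ = R - 1 := by omega
    rw [hnd] at b1
    show (-1 : ℝ) * (mfn ε P s F (e.symm (e x)) z * P0 d₁ C W (psiE ε P s) e (e x)) ≤
      (lamE ε P s F (e.symm (e x)) z - psiE ε P s (e.symm (e x))) *
        cfd d₁ (MT C W (psiE ε P s) (lamE ε P s F) t e (e x) z) (W e (e x))
    rw [e.left_inv hx.2]
    set v := lamE ε P s F x z - psiE ε P s x with hv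
    set A := cfd d₁ (MT C W (psiE ε P s) (lamE ε P s F) t e (e x) z) (W e (e x)) with hA
    have e1 : mfn ε P s F x z * P0 d₁ C W (psiE ε P s) e (e x) = max (-v) 0 *
        ((4 * (2 * (1 + nF (F z)) * Real.exp (-v))) ^ (R - 1) *
          P0 d₁ C W (psiE ε P s) e (e x)) := by
      unfold mfn
      rw [mul_assoc]
    rw [e1]
    have b2 : max (-v) 0 * A ≤ max (-v) 0 *
        ((4 * (2 * (1 + nF (F z)) * Real.exp (-v))) ^ (R - 1) *
          P0 d₁ C W (psiE ε P s) e (e x)) := mul_le_mul_of_nonneg_left b1 (le_max_right _ _)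
    have b3 : -v * A ≤ max (-v) 0 * A := mul_le_mul_of_nonneg_right (le_max_left _ _) b0
    linarith
  unfold uz
  by_cases hi : IntervalIntegrable (fun t => INT.intX (fun (e : Chart n X) y =>
      (lamE ε P s F (e.symm y) z - psiE ε P s (e.symm y)) *
        cfd d₁ (MT C W (psiE ε P s) (lamE ε P s F) t e y z) (W e y))) volume 0 1
  · have h1 := intervalIntegral.integral_mono_on (a := (0 : ℝ)) (b := 1) zero_le_one
      (f := fun _ => -G) (by simp) hi hstep
    simpa using h1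
  · rw [intervalIntegral.integral_undef hi]
    linarith

/-- the assembly -/
theorem e4_core (hW : IsHermitian W) (hR : 1 ≤ R) (hRn : R ≤ n) (hF : ∀ z, AnalyticAt ℂ F z)
    {z₀ : Cm R} {r Cb : ℝ}
    (hb : ∀ σ : Cm (R + 1), σ ≠ 0 →
        IntegrableOn (fun z => |Real.log (1 / 4 * tt σ (F z))| * ((tt σ (F z))⁻¹) ^ (R - 1))
          (closedBall z₀ r) ∧
        ∫ z in closedBall z₀ r, |Real.log (1 / 4 * tt σ (F z))| * ((tt σ (F z))⁻¹) ^ (R - 1) ≤ Cb ∧
        ∀ᵐ z ∂((volume : Measure (Cm R)).restrict (closedBall z₀ r)), 0 < tt σ (F z))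
    (hCb : 0 ≤ Cb) (hε : 0 < ε)
    (hl : JSm (n := n) (lamE ε P s F)) (hp : SmoothFn (n := n) (psiE ε P s))
    (hM : ∀ (e : Chart n X) x, At e x → ∀ z : Cm R, ∀ t ∈ Icc (0 : ℝ) 1,
      (MT C W (psiE ε P s) (lamE ε P s F) t e (e x) z).PosSemidef)
    (hc : ∀ (e : Chart n X) x, At e x → ∀ z : Cm R, ∀ t ∈ Icc (0 : ℝ) 1,
        (((4 * (2 * (1 + nF (F z)) * Real.exp (-(lamE ε P s F x z - psiE ε P s x))) : ℝ) : ℂ) •
            MT C W (psiE ε P s) (lamE ε P s F) 0 e (e x) z -
          MT C W (psiE ε P s) (lamE ε P s F) t e (e x) z).PosSemidef) :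
    ∫ z in ball z₀ r, max (-uz (n - R + 1) C W (psiE ε P s) (lamE ε P s F) z) 0 ≤
      32 ^ (R - 1) * Cb * INT.intX (P0 (X := X) (n - R + 1) C W (psiE ε P s)) := by
  have hFc : Continuous F := continuous_iff_continuousAt.2 fun z => (hF z).continuousAt
  set d₁ := n - R + 1 with hd
  set D : Cm R → Chart n X → Cm n → ℝ := fun z e y =>
    mfn ε P s F (e.symm y) z * P0 d₁ C W (psiE ε P s) e y with hDd
  have hP0 : ∀ (e : Chart n X) x, At e x → 0 ≤ P0 d₁ C W (psiE ε P s) e (e x) := by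
    intro e x hx
    have h1 := hM e x hx z₀ 0 ⟨le_rfl, zero_le_one⟩
    rw [MT_zero] at h1
    exact cfd_nonneg h1 (hW.posDef e x hx).posSemidef
  have hDen : ∀ z, INT.IsDensity (D z) := fun z =>
    (P0_dens hW C hp d₁).smul (mfn_contX hl hp z)
  have hPC : H619.D.PCont D := by
    intro e x hx z
    refine (mfn_joint hl hp hFc hx z).mul ?_
    exact ContinuousAt.comp (x := (z, e x)) (g := fun y : Cm n => P0 d₁ C W (psiE ε P s) e y)
      (f := fun q : Cm R × Cm n => q.2) ((P0_dens hW C hp d₁).cont e x hx) (by fun_prop)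
  have hKc : IsCompact (closedBall z₀ r) := isCompact_closedBall z₀ r
  obtain ⟨hint, hfub⟩ := H619.D.setInt_intX (μ := (volume : Measure (Cm R))) hPC hKc
  have hdens := H619.D.isDensity_setInt (μ := (volume : Measure (Cm R))) hPC hDen hKc
  have hlow := fun z => uz_low (C := C) hW hR hRn hl hp hM hc z
  have s1 : ∫ z in ball z₀ r, max (-uz d₁ C W (psiE ε P s) (lamE ε P s F) z) 0 ≤
      ∫ z in ball z₀ r, INT.intX (D z) := by
    refine integral_mono_of_nonneg (Eventually.of_forall fun z => le_max_right _ _)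
      (hint.mono_set ball_subset_closedBall) (Eventually.of_forall fun z => ?_)
    refine max_le ?_ (hlow z).1
    have := (hlow z).2
    show -uz d₁ C W (psiE ε P s) (lamE ε P s F) z ≤ INT.intX (D z)
    linarith
  have s2 : ∫ z in ball z₀ r, INT.intX (D z) ≤ ∫ z in closedBall z₀ r, INT.intX (D z) :=
    setIntegral_mono_set hint (Eventually.of_forall fun z => (hlow z).1)
      ball_subset_closedBall.eventuallyLE
  refine s1.trans (s2.trans ?_)
  rw [hfub, ← INT.intX_const_mul]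
  refine INT.intX_mono hdens ((P0_dens hW C hp d₁).const_mul _) fun e x hx => ?_
  show ∫ z in closedBall z₀ r, mfn ε P s F (e.symm (e x)) z * P0 d₁ C W (psiE ε P s) e (e x) ≤
    32 ^ (R - 1) * Cb * P0 d₁ C W (psiE ε P s) e (e x)
  rw [e.left_inv hx.2, integral_mul_const]
  refine mul_le_mul_of_nonneg_right ?_ (hP0 e x hx)
  by_cases h0 : sv s x = 0
  · have : (fun z => mfn ε P s F x z) = fun _ => 0 := funext fun z => mfn_zero P s F hε x z h0
    rw [this, integral_zero]
    positivity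
  · obtain ⟨b1, b2, b3⟩ := hb (sv s x) h0
    calc ∫ z in closedBall z₀ r, mfn ε P s F x z
        ≤ ∫ z in closedBall z₀ r, 32 ^ (R - 1) *
            (|Real.log (1 / 4 * tt (sv s x) (F z))| * ((tt (sv s x) (F z))⁻¹) ^ (R - 1)) := by
          refine integral_mono_of_nonneg (Eventually.of_forall fun z => mfn_nonneg _ _ _ _ _ _)
            (b1.const_mul _) ?_
          filter_upwards [b3] with z hz
          exact mfn_le P s F hε x z h0 hz
      _ = 32 ^ (R - 1) * ∫ z in closedBall z₀ r,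
            |Real.log (1 / 4 * tt (sv s x) (F z))| * ((tt (sv s x) (F z))⁻¹) ^ (R - 1) :=
          integral_const_mul _ _
      _ ≤ 32 ^ (R - 1) * Cb := mul_le_mul_of_nonneg_left b2 (by positivity)

end

/-- **E4** -/
theorem e4_of (h1 : E1Stmt) (h3 : E3aStmt) : E4Stmt := by
  intro n R k hR hRn X _ _ _ _ _ W hW L P s
  obtain ⟨C₀, hC₀, g1⟩ := h1 n R k X W hW L P s
  refine ⟨C₀, hC₀, fun C hC F hF z₀ hz₀ => ?_⟩
  obtain ⟨r, hr, Cb, hCb, hb⟩ := exists_base2 (k := R - 1) (κ := 1 / 4) hF hz₀ (by omega)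
    (by norm_num)
  refine ⟨r, 32 ^ (R - 1) * Cb *
    INT.intX (fun e y => cfd (n - R + 1) ((C : ℂ) • W e y) (W e y)), hr, fun ε hε hε1 => ?_⟩
  obtain ⟨a1, a2, -, a4, -, a6⟩ := g1 C hC F hF ε hε hε1
  have h := e4_core (C := C) (P := P) (s := s) hW.toIsHermitian hR hRn hF hb hCb hε a1 a2 a4 a6
  refine h.trans (le_of_eq ?_)
  have h2 := h3 n X W hW C (psiE ε P s) a2 (n - R + 1)
  rw [← h2]
  rfl

end Vale.Agent.P284.H324.D
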