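import Vale.Agent.P284.H324.D.Alg
import Vale.Agent.P284.H451.D.Cone

/-!
# P284 (helper324), project D, E4: `|σ ∧ F(z)| ≥ c |z - z₁| |σ|` near a point where `[F]` is an immersion
-/

open Finset Set Filter Metric
open scoped Topology

noncomputable section

namespace Vale.Agent.P284.H324.D

open Vale.Agent.P281.H64 (Cm)
open Vale.Agent.P284.H451.D (LF LF_apply)

variable {m R : ℕ}

theorem continuous_wd : Continuous fun q : (Fin m → ℂ) × (Fin m → ℂ) => wd q.1 q.2 := by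
  unfold wd
  fun_prop

theorem continuous_n2 : Continuous fun q : Fin m → ℂ => n2 q := by
  unfold n2
  fun_prop

/-- if `wd σ τ = 0`, `σ ≠ 0`, then `τ` is a multiple of `σ` -/
theorem exists_of_wd {σ τ : Fin m → ℂ} (hσ : σ ≠ 0) (h : wd σ τ = 0) : ∃ c : ℂ, τ = c • σ := by
  obtain ⟨a, ha⟩ := Function.ne_iff.1 hσ
  have ha' : σ a ≠ 0 := ha
  refine ⟨τ a / σ a, funext fun b => ?_⟩
  have h1 : ∑ b, ‖σ a * τ b - σ b * τ a‖ ^ 2 = 0 :=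
    (sum_eq_zero_iff_of_nonneg fun a _ => sum_nonneg fun b _ => sq_nonneg _).1 h a (mem_univ _)
  have h2 : ‖σ a * τ b - σ b * τ a‖ ^ 2 = 0 :=
    (sum_eq_zero_iff_of_nonneg fun b _ => sq_nonneg _).1 h1 b (mem_univ _)
  have h3 : σ a * τ b - σ b * τ a = 0 := by
    have := pow_eq_zero_iff (two_ne_zero) |>.1 h2
    exact norm_eq_zero.1 this
  rw [Pi.smul_apply, smul_eq_mul]
  field_simp
  linear_combination h3

/-- the second derivative of the projective distance is positive definite -/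
theorem exists_low {F : Cm R → Cm (R + 1)} {z₀ : Cm R} (h : Function.Surjective (LF F z₀)) :
    F z₀ ≠ 0 ∧ ∃ c : ℝ, 0 < c ∧ ∀ ξ : Cm R, c * ‖ξ‖ ^ 2 ≤ wd (F z₀) (fderiv ℂ F z₀ ξ) := by
  have hinj : Function.Injective (LF F z₀) := by
    have hfr : Module.finrank ℂ (ℂ × Cm R) = Module.finrank ℂ (Cm (R + 1)) := by
      simp [Module.finrank_prod]
      ring
    exact (LinearMap.injective_iff_surjective_of_finrank_eq_finrank
      (f := (LF F z₀ : (ℂ × Cm R) →ₗ[ℂ] Cm (R + 1))) hfr).2 h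
  have h0 : F z₀ ≠ 0 := by
    intro h0
    have h1 : LF F z₀ (1, 0) = LF F z₀ 0 := by
      rw [LF_apply, LF_apply]
      simp [h0]
    have := hinj h1
    simp at this
  refine ⟨h0, ?_⟩
  have hq : ∀ ξ : Cm R, wd (F z₀) (fderiv ℂ F z₀ ξ) = 0 → ξ = 0 := by
    intro ξ hξ
    obtain ⟨c, hc⟩ := exists_of_wd h0 hξ
    have h1 : LF F z₀ (-c, ξ) = LF F z₀ 0 := by
      rw [LF_apply, LF_apply, hc]
      simp
    have h2 := hinj h1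
    exact (Prod.mk.inj h2).2
  rcases subsingleton_or_nontrivial (Cm R) with hs | hs
  · refine ⟨1, one_pos, fun ξ => ?_⟩
    rw [Subsingleton.elim ξ 0, norm_zero]
    simpa using wd_nonneg _ _
  have hcomp : IsCompact (sphere (0 : Cm R) 1) := isCompact_sphere 0 1
  have hne : (sphere (0 : Cm R) 1).Nonempty := NormedSpace.sphere_nonempty.2 zero_le_one
  have hcont : ContinuousOn (fun ξ : Cm R => wd (F z₀) (fderiv ℂ F z₀ ξ)) (sphere 0 1) :=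
    (continuous_wd.comp (continuous_const.prodMk (fderiv ℂ F z₀).continuous)).continuousOn
  obtain ⟨ξ₀, hξ₀, hmin⟩ := hcomp.exists_isMinOn hne hcont
  have hpos : 0 < wd (F z₀) (fderiv ℂ F z₀ ξ₀) := by
    refine lt_of_le_of_ne (wd_nonneg _ _) fun h1 => ?_
    have := hq ξ₀ h1.symm
    rw [this] at hξ₀
    simp at hξ₀
  refine ⟨_, hpos, fun ξ => ?_⟩
  rcases eq_or_ne ξ 0 with rfl | hξ
  · simpa using wd_nonneg _ _
  have hn : 0 < ‖ξ‖ := norm_pos_iff.2 hξ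
  set η : Cm R := ((‖ξ‖⁻¹ : ℝ) : ℂ) • ξ with hη
  have hηs : η ∈ sphere (0 : Cm R) 1 := by
    rw [mem_sphere_zero_iff_norm, hη, norm_smul, Complex.norm_real, norm_inv, norm_norm,
      inv_mul_cancel₀ hn.ne']
  have h1 : wd (F z₀) (fderiv ℂ F z₀ ξ₀) ≤ wd (F z₀) (fderiv ℂ F z₀ η) := hmin hηs
  have h2 : wd (F z₀) (fderiv ℂ F z₀ η) = (‖ξ‖⁻¹) ^ 2 * wd (F z₀) (fderiv ℂ F z₀ ξ) := by
    rw [hη, map_smul, wd_comm, wd_smul, wd_comm, Complex.norm_real, norm_inv, norm_norm]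
  rw [h2] at h1
  have h3 : wd (F z₀) (fderiv ℂ F z₀ ξ) = ‖ξ‖ ^ 2 * ((‖ξ‖⁻¹) ^ 2 * wd (F z₀) (fderiv ℂ F z₀ ξ)) := by
    field_simp
  rw [h3, mul_comm]
  exact mul_le_mul_of_nonneg_left h1 (sq_nonneg _)

theorem wd_add_right (σ x y : Fin m → ℂ) : wd σ (x + y) ≤ 2 * wd σ x + 2 * wd σ y := by
  unfold wd
  simp only [mul_sum]
  rw [← sum_add_distrib]
  refine sum_le_sum fun a _ => ?_
  rw [← sum_add_distrib]
  refine sum_le_sum fun b _ => ?_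
  have e : σ a * (x + y) b - σ b * (x + y) a =
      (σ a * x b - σ b * x a) + (σ a * y b - σ b * y a) := by
    simp only [Pi.add_apply]
    ring
  rw [e]
  have h := norm_add_le (σ a * x b - σ b * x a) (σ a * y b - σ b * y a)
  have h0 := norm_nonneg ((σ a * x b - σ b * x a) + (σ a * y b - σ b * y a))
  nlinarith [sq_nonneg (‖σ a * x b - σ b * x a‖ - ‖σ a * y b - σ b * y a‖)]

theorem wd_self (σ : Fin m → ℂ) : wd σ σ = 0 := by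
  unfold wd
  refine sum_eq_zero fun a _ => sum_eq_zero fun b _ => ?_
  rw [mul_comm (σ b), sub_self, norm_zero]
  norm_num

theorem n2_le (σ : Fin m → ℂ) : n2 σ ≤ m * ‖σ‖ ^ 2 := by
  unfold n2
  calc ∑ a, ‖σ a‖ ^ 2 ≤ ∑ _a : Fin m, ‖σ‖ ^ 2 :=
        sum_le_sum fun a _ => pow_le_pow_left₀ (norm_nonneg _) (norm_le_pi_norm σ a) 2
    _ = m * ‖σ‖ ^ 2 := by simp

theorem sq_norm_le_n2 (σ : Fin m → ℂ) : ‖σ‖ ^ 2 ≤ n2 σ := by
  have h : ‖σ‖ ≤ √(n2 σ) := by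
    refine (pi_norm_le_iff_of_nonneg (Real.sqrt_nonneg _)).2 fun a => ?_
    refine Real.le_sqrt_of_sq_le ?_
    exact single_le_sum (f := fun a => ‖σ a‖ ^ 2) (fun _ _ => sq_nonneg _) (mem_univ a)
  calc ‖σ‖ ^ 2 ≤ (√(n2 σ)) ^ 2 := pow_le_pow_left₀ (norm_nonneg _) h 2
    _ = n2 σ := Real.sq_sqrt (n2_nonneg _)

/-- `|F(z) ∧ F(z')| ≥ c |z - z'|` near `z₀` -/
theorem exists_sep {F : Cm R → Cm (R + 1)} {z₀ : Cm R} (hF : AnalyticAt ℂ F z₀)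
    (h : Function.Surjective (LF F z₀)) :
    ∃ c : ℝ, 0 < c ∧ ∀ᶠ q : Cm R × Cm R in 𝓝 (z₀, z₀),
      c * ‖q.1 - q.2‖ ^ 2 ≤ wd (F q.1) (F q.2) := by
  obtain ⟨h0, c, hc, hlow⟩ := exists_low h
  set M : ℝ := 4 * ((R + 1 : ℕ) : ℝ) ^ 2 with hM
  have hM0 : 0 < M := by positivity
  set L := fderiv ℂ F z₀ with hL
  -- errors
  have hst : HasStrictFDerivAt F L z₀ := hF.hasStrictFDerivAt
  set N := ‖F z₀‖ + 1 with hN
  have hN0 : 0 < N := by positivity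
  -- choose δ
  set K : ℝ := (‖L‖ + 1) with hK
  have hK0 : 0 < K := by positivity
  obtain ⟨δ, hδ, hδ1, hδc⟩ : ∃ δ : ℝ, 0 < δ ∧ δ ≤ 1 ∧
      4 * (M * δ ^ 2 * K ^ 2) + 4 * (M * N ^ 2 * δ ^ 2) ≤ c / 2 := by
    set B : ℝ := 4 * (M * K ^ 2) + 4 * (M * N ^ 2) with hB
    have hB0 : 0 < B := by positivity
    refine ⟨min 1 (√(c / 2 / B)), lt_min one_pos (Real.sqrt_pos.2 (by positivity)), min_le_left _ _, ?_⟩
    have h1 : (min 1 (√(c / 2 / B))) ^ 2 ≤ c / 2 / B := by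
      calc (min 1 (√(c / 2 / B))) ^ 2 ≤ (√(c / 2 / B)) ^ 2 :=
            pow_le_pow_left₀ (le_min zero_le_one (Real.sqrt_nonneg _)) (min_le_right _ _) 2
        _ = c / 2 / B := Real.sq_sqrt (by positivity)
    calc 4 * (M * (min 1 (√(c / 2 / B))) ^ 2 * K ^ 2) + 4 * (M * N ^ 2 * (min 1 (√(c / 2 / B))) ^ 2)
        = B * (min 1 (√(c / 2 / B))) ^ 2 := by rw [hB]; ring
      _ ≤ B * (c / 2 / B) := mul_le_mul_of_nonneg_left h1 hB0.le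
      _ = c / 2 := by field_simp
  have hev : ∀ᶠ q : Cm R × Cm R in 𝓝 (z₀, z₀), ‖F q.1 - F q.2 - L (q.1 - q.2)‖ ≤ δ * ‖q.1 - q.2‖ := by
    have := hst.isLittleO
    exact this.bound hδ
  have hcF : ∀ᶠ q : Cm R × Cm R in 𝓝 (z₀, z₀), ‖F q.1 - F z₀‖ ≤ δ := by
    have h1 : Tendsto (fun q : Cm R × Cm R => F q.1) (𝓝 (z₀, z₀)) (𝓝 (F z₀)) :=
      hF.continuousAt.tendsto.comp continuous_fst.continuousAt
    have h2 := h1 (closedBall_mem_nhds (F z₀) hδ)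
    filter_upwards [h2] with q hq
    have : F q.1 ∈ closedBall (F z₀) δ := hq
    rwa [mem_closedBall, dist_eq_norm] at this
  refine ⟨c / 8, by positivity, ?_⟩
  filter_upwards [hev, hcF] with q h1 h2
  set ξ := q.1 - q.2 with hξ
  set e := F q.1 - F q.2 - L ξ with he
  set f := F q.1 - F z₀ with hf
  -- `wd (F z₀) (L ξ)` against `wd (F q.1) (F q.2)`
  have k0 := hlow ξ
  have hMm : ∀ x y : Cm (R + 1), wd x y ≤ M * (‖x‖ ^ 2 * ‖y‖ ^ 2) := by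
    intro x y
    have g1 := wd_le x y
    have g2 := n2_le x
    have g3 := n2_le y
    have g4 : n2 x * n2 y ≤ (((R + 1 : ℕ) : ℝ) * ‖x‖ ^ 2) * (((R + 1 : ℕ) : ℝ) * ‖y‖ ^ 2) :=
      mul_le_mul g2 g3 (n2_nonneg _) (by positivity)
    calc wd x y ≤ 4 * (n2 x * n2 y) := g1
      _ ≤ 4 * ((((R + 1 : ℕ) : ℝ) * ‖x‖ ^ 2) * (((R + 1 : ℕ) : ℝ) * ‖y‖ ^ 2)) := by linarith
      _ = M * (‖x‖ ^ 2 * ‖y‖ ^ 2) := by rw [hM]; ring
  have hLξ : ‖L ξ‖ ≤ K * ‖ξ‖ :=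
    (L.le_opNorm ξ).trans (mul_le_mul_of_nonneg_right (by rw [hK]; linarith) (norm_nonneg _))
  -- step 1: `wd (F z₀) (L ξ) ≤ 2 wd (F q.1) (L ξ) + 2 wd f (L ξ)`
  have s1 : wd (F z₀) (L ξ) ≤ 2 * wd (F q.1) (L ξ) + 2 * wd f (L ξ) := by
    have e1 : F z₀ = F q.1 + (-1 : ℂ) • f := by
      rw [hf]
      simp
    have g := wd_add_right (L ξ) (F q.1) ((-1 : ℂ) • f)
    rw [← e1, wd_comm _ (F z₀), wd_comm _ (F q.1), wd_comm _ ((-1 : ℂ) • f), wd_smul] at g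
    simpa using g
  have s2 : wd (F q.1) (L ξ) ≤ 2 * wd (F q.1) (F q.2) + 2 * wd (F q.1) e := by
    -- `L ξ = F q.1 - F q.2 - e`
    have e1 : L ξ = (F q.1 + (-1 : ℂ) • F q.2) + (-1 : ℂ) • e := by
      rw [he]
      simp
      abel
    have e2 : wd (F q.1) (F q.1 + (-1 : ℂ) • F q.2) = wd (F q.1) (F q.2) := by
      unfold wd
      refine sum_congr rfl fun a _ => sum_congr rfl fun b _ => ?_
      rw [← norm_neg]
      congr 2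
      simp only [Pi.add_apply, Pi.smul_apply, smul_eq_mul]
      ring
    have g := wd_add_right (F q.1) (F q.1 + (-1 : ℂ) • F q.2) ((-1 : ℂ) • e)
    rw [← e1, e2, wd_comm _ ((-1 : ℂ) • e), wd_smul, wd_comm e] at g
    simpa using g
  have hq1 : ‖F q.1‖ ≤ N := by
    have : F q.1 = F z₀ + f := by rw [hf]; abel
    rw [this]
    refine (norm_add_le _ _).trans ?_
    rw [hN]
    linarith
  have b1 : wd f (L ξ) ≤ M * δ ^ 2 * K ^ 2 * ‖ξ‖ ^ 2 := by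
    refine (hMm _ _).trans ?_
    have g1 : ‖f‖ ^ 2 ≤ δ ^ 2 := pow_le_pow_left₀ (norm_nonneg _) h2 2
    have g2 : ‖L ξ‖ ^ 2 ≤ (K * ‖ξ‖) ^ 2 := pow_le_pow_left₀ (norm_nonneg _) hLξ 2
    calc M * (‖f‖ ^ 2 * ‖L ξ‖ ^ 2) ≤ M * (δ ^ 2 * (K * ‖ξ‖) ^ 2) :=
          mul_le_mul_of_nonneg_left (mul_le_mul g1 g2 (sq_nonneg _) (sq_nonneg _)) hM0.le
      _ = M * δ ^ 2 * K ^ 2 * ‖ξ‖ ^ 2 := by ring
  have b2 : wd (F q.1) e ≤ M * N ^ 2 * δ ^ 2 * ‖ξ‖ ^ 2 := by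
    refine (hMm _ _).trans ?_
    have g1 : ‖F q.1‖ ^ 2 ≤ N ^ 2 := pow_le_pow_left₀ (norm_nonneg _) hq1 2
    have g2 : ‖e‖ ^ 2 ≤ (δ * ‖ξ‖) ^ 2 := pow_le_pow_left₀ (norm_nonneg _) h1 2
    calc M * (‖F q.1‖ ^ 2 * ‖e‖ ^ 2) ≤ M * (N ^ 2 * (δ * ‖ξ‖) ^ 2) :=
          mul_le_mul_of_nonneg_left (mul_le_mul g1 g2 (sq_nonneg _) (sq_nonneg _)) hM0.le
      _ = M * N ^ 2 * δ ^ 2 * ‖ξ‖ ^ 2 := by ring
  have hfin : c * ‖ξ‖ ^ 2 ≤ 4 * wd (F q.1) (F q.2) + (c / 2) * ‖ξ‖ ^ 2 := by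
    have g := mul_le_mul_of_nonneg_right hδc (sq_nonneg ‖ξ‖)
    have hd : 0 ≤ M * δ ^ 2 * K ^ 2 * ‖ξ‖ ^ 2 := by positivity
    have g' : 4 * (M * δ ^ 2 * K ^ 2 * ‖ξ‖ ^ 2) + 4 * (M * N ^ 2 * δ ^ 2 * ‖ξ‖ ^ 2) ≤
        c / 2 * ‖ξ‖ ^ 2 := by
      refine le_trans (le_of_eq ?_) g
      ring
    linarith
  show c / 8 * ‖ξ‖ ^ 2 ≤ wd (F q.1) (F q.2)
  linarith

end Vale.Agent.P284.H324.D
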